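import Mathlib

namespace Vale.Agent.Results.P040.TwoCells

/-- Orientation (twice the signed area) of the triangle `p q r` in the plane. -/
def orient (p q r : ℝ × ℝ) : ℝ := (q.1 - p.1) * (r.2 - p.2) - (q.2 - p.2) * (r.1 - p.1)

/-- The interior of the straight edge joining the vertex `a e.1` to the vertex `b e.2`. -/
def edge {m n : ℕ} (a : Fin m → ℝ × ℝ) (b : Fin n → ℝ × ℝ) (e : Fin m × Fin n) : Set (ℝ × ℝ) :=
  openSegment ℝ (a e.1) (b e.2)

/-- `a`, `b` are the vertex positions of a straight-line drawing of `K_{m,n}`: the vertices are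
distinct points, no edge interior contains a vertex, no point lies on three edge interiors. -/
structure IsDrawing {m n : ℕ} (a : Fin m → ℝ × ℝ) (b : Fin n → ℝ × ℝ) : Prop where
  a_inj : Function.Injective a
  b_inj : Function.Injective b
  a_ne_b : ∀ i j, a i ≠ b j
  a_notMem : ∀ i e, a i ∉ edge a b e
  b_notMem : ∀ j e, b j ∉ edge a b e
  no_triple : ∀ x e₁ e₂ e₃, e₁ ≠ e₂ → e₁ ≠ e₃ → e₂ ≠ e₃ →
    x ∈ edge a b e₁ → x ∈ edge a b e₂ → x ∉ edge a b e₃

/-- The set of crossing points of the drawing. -/
def crossings {m n : ℕ} (a : Fin m → ℝ × ℝ) (b : Fin n → ℝ × ℝ) : Set (ℝ × ℝ) :=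
  {x | ∃ e e', e ≠ e' ∧ x ∈ edge a b e ∧ x ∈ edge a b e'}

theorem ratio_pos {α β : ℝ} (h : α * β < 0) :
    0 < β / (β - α) ∧ 0 < -α / (β - α) ∧ β - α ≠ 0 := by
  rcases lt_trichotomy α 0 with ha | ha | ha
  · have hb : 0 < β := by
      by_contra hb
      push Not at hb
      nlinarith [mul_nonneg_of_nonpos_of_nonpos ha.le hb]
    have : 0 < β - α := by linarith
    exact ⟨div_pos hb this, div_pos (by linarith) this, this.ne'⟩
  · rw [ha] at h; simp at h
  · have hb : β < 0 := by
      by_contra hb
      push Not at hb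
      nlinarith [mul_nonneg ha.le hb]
    have : β - α < 0 := by linarith
    exact ⟨div_pos_of_neg_of_neg hb this, div_pos_of_neg_of_neg (by linarith) this, this.ne⟩

theorem cross_of_orient (p q r s : ℝ × ℝ) (h1 : orient p q r * orient p q s < 0)
    (h2 : orient r s p * orient r s q < 0) :
    (openSegment ℝ p q ∩ openSegment ℝ r s).Nonempty := by
  obtain ⟨a1, a2, a3⟩ := ratio_pos h1
  obtain ⟨c1, c2, c3⟩ := ratio_pos h2
  refine ⟨(orient r s q / (orient r s q - orient r s p)) • p
    + (-orient r s p / (orient r s q - orient r s p)) • q,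
    ⟨_, _, c1, c2, by field_simp; ring, rfl⟩,
    ⟨orient p q s / (orient p q s - orient p q r), -orient p q r / (orient p q s - orient p q r),
      a1, a2, by field_simp; ring, ?_⟩⟩
  ext
  · simp only [Prod.fst_add, Prod.smul_fst, smul_eq_mul]
    field_simp
    unfold orient
    ring
  · simp only [Prod.snd_add, Prod.smul_snd, smul_eq_mul]
    field_simp
    unfold orient
    ring

theorem cross_or_cross (a a' b b' : ℝ × ℝ) (hx : 0 < orient b b' a * orient b b' a')
    (hy : 0 < orient a a' b * orient a a' b') :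
    (openSegment ℝ a b ∩ openSegment ℝ a' b').Nonempty ∨
    (openSegment ℝ a' b ∩ openSegment ℝ a b').Nonempty := by
  have e1 : orient a b a' = - orient a a' b := by unfold orient; ring
  have e2 : orient a b b' = orient b b' a := by unfold orient; ring
  have e3 : orient a' b' a = orient a a' b' := by unfold orient; ring
  have e4 : orient a' b' b = - orient b b' a' := by unfold orient; ring
  have f1 : orient a' b a = orient a a' b := by unfold orient; ring
  have f2 : orient a' b b' = orient b b' a' := by unfold orient; ring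
  have f3 : orient a b' a' = - orient a a' b' := by unfold orient; ring
  have f4 : orient a b' b = - orient b b' a := by unfold orient; ring
  set x1 := orient b b' a
  set x2 := orient b b' a'
  set y1 := orient a a' b
  set y2 := orient a a' b'
  by_cases hs : 0 < x1 * y1
  · left
    apply cross_of_orient
    · rw [e1, e2]; nlinarith
    · rw [e3, e4]
      have : 0 < (x1 * y1) * (x2 * y2) := by nlinarith [mul_pos hx hy]
      have h2 : 0 < x2 * y2 := by
        by_contra hc
        push Not at hc
        nlinarith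
      nlinarith
  · right
    have hx1 : x1 ≠ 0 := by rintro h; rw [h] at hx; simp at hx
    have hy1 : y1 ≠ 0 := by rintro h; rw [h] at hy; simp at hy
    have hs' : x1 * y1 < 0 := lt_of_le_of_ne (not_lt.mp hs) (mul_ne_zero hx1 hy1)
    apply cross_of_orient
    · rw [f1, f2]
      -- y1 * x2 < 0
      have : (x1 * y1) * (x1 * x2) < 0 := mul_neg_of_neg_of_pos hs' hx
      have hsq : 0 < x1 * x1 := mul_self_pos.2 hx1
      by_contra hc
      push Not at hc
      nlinarith [mul_nonneg hsq.le hc]
    · rw [f3, f4]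
      -- y2 * x1 < 0 -> (-y2)*(-x1) <0 
      have : (x1 * y1) * (y1 * y2) < 0 := mul_neg_of_neg_of_pos hs' hy
      have hsq : 0 < y1 * y1 := mul_self_pos.2 hy1
      by_contra hc
      push Not at hc
      nlinarith [mul_nonneg hsq.le hc]

/-- If `a, b, b'` are distinct collinear points, neither of `b, b'` lies strictly between `a` and
the other one, then every line through `a` weakly separates `b` and `b'`. -/
theorem orient_ne_zero (a a' b b' : ℝ × ℝ) (hbb : b ≠ b') (hab : a ≠ b) (hab' : a ≠ b')
    (h1 : b' ∉ openSegment ℝ a b) (h2 : b ∉ openSegment ℝ a b')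
    (hy : 0 < orient a a' b * orient a a' b') : orient b b' a ≠ 0 := by
  intro h0
  -- u = b - a, w = b' - a
  have hu : 0 < (b.1 - a.1) ^ 2 + (b.2 - a.2) ^ 2 := by
    by_contra hc
    have h3 : (b.1 - a.1) ^ 2 + (b.2 - a.2) ^ 2 = 0 :=
      le_antisymm (not_lt.mp hc) (by positivity)
    have h4 : b.1 - a.1 = 0 := by nlinarith [sq_nonneg (b.1 - a.1), sq_nonneg (b.2 - a.2)]
    have h5 : b.2 - a.2 = 0 := by nlinarith [sq_nonneg (b.1 - a.1), sq_nonneg (b.2 - a.2)]
    exact hab (Prod.ext (by linarith) (by linarith))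
  set N := (b.1 - a.1) ^ 2 + (b.2 - a.2) ^ 2 with hN
  set lam := ((b.1 - a.1) * (b'.1 - a.1) + (b.2 - a.2) * (b'.2 - a.2)) / N with hlam
  have hcr : (b.1 - a.1) * (b'.2 - a.2) - (b.2 - a.2) * (b'.1 - a.1) = 0 := by
    unfold orient at h0; linarith
  have w1 : b'.1 - a.1 = lam * (b.1 - a.1) := by
    rw [hlam]; field_simp; rw [hN]; linear_combination (-(b.2 - a.2)) * hcr
  have w2 : b'.2 - a.2 = lam * (b.2 - a.2) := by
    rw [hlam]; field_simp; rw [hN]; linear_combination (b.1 - a.1) * hcr
  have hl0 : lam ≠ 0 := by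
    intro h
    rw [h] at w1 w2
    exact hab' (Prod.ext (by linarith) (by linarith))
  have hl1 : lam ≠ 1 := by
    intro h
    rw [h] at w1 w2
    exact hbb (Prod.ext (by linarith) (by linarith))
  have hor : orient a a' b' = lam * orient a a' b := by
    unfold orient; rw [w1, w2]; ring
  rcases lt_or_gt_of_ne hl0 with hneg | hpos
  · rw [hor] at hy
    nlinarith [mul_self_nonneg (orient a a' b)]
  · rcases lt_or_gt_of_ne hl1 with hlt | hgt
    · apply h1
      refine ⟨1 - lam, lam, by linarith, hpos, by ring, ?_⟩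
      ext
      · simp only [Prod.fst_add, Prod.smul_fst, smul_eq_mul]; linarith
      · simp only [Prod.snd_add, Prod.smul_snd, smul_eq_mul]; linarith
    · apply h2
      refine ⟨1 - 1 / lam, 1 / lam, ?_, by positivity, by ring, ?_⟩
      · have : 1 / lam < 1 := by rw [div_lt_one hpos]; exact hgt
        linarith
      ext
      · simp only [Prod.fst_add, Prod.smul_fst, smul_eq_mul]
        field_simp
        linarith
      · simp only [Prod.snd_add, Prod.smul_snd, smul_eq_mul]
        field_simp
        linarith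

theorem arith_half (p q x : ℕ) (h : p * p - p + (q * q - q) ≤ 2 * x) :
    ((p + q) / 2) * ((p + q - 1) / 2) ≤ x := by
  have hp : p ≤ p * p := Nat.le_mul_self p
  have hq : q ≤ q * q := Nat.le_mul_self q
  have h' : (p : ℤ) * p - p + (q * q - q) ≤ 2 * x := by
    have : p * p + q * q ≤ 2 * x + p + q := by omega
    have : ((p * p + q * q : ℕ) : ℤ) ≤ ((2 * x + p + q : ℕ) : ℤ) := by exact_mod_cast this
    push_cast at this
    linarith
  rcases Nat.even_or_odd' (p + q) with ⟨t, ht | ht⟩
  · have e1 : (p + q) / 2 = t := by omega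
    have e2 : (p + q - 1) / 2 = t - 1 := by omega
    rw [e1, e2]
    rcases Nat.eq_zero_or_pos t with h0 | h0
    · subst h0; simp
    · have ht' : (p : ℤ) + q = 2 * t := by exact_mod_cast ht
      have goal : (t : ℤ) * (t - 1) ≤ x := by nlinarith [sq_nonneg ((p : ℤ) - q)]
      have : ((t * (t - 1) : ℕ) : ℤ) ≤ x := by
        rw [Nat.cast_mul, Nat.cast_sub h0]; simpa using goal
      exact_mod_cast this
  · have e1 : (p + q) / 2 = t := by omega
    have e2 : (p + q - 1) / 2 = t := by omega
    rw [e1, e2]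
    have ht' : (p : ℤ) + q = 2 * t + 1 := by exact_mod_cast ht
    have hne : (p : ℤ) - q ≠ 0 := by omega
    have hsq : 1 ≤ ((p : ℤ) - q) ^ 2 := by
      have := sq_pos_of_ne_zero hne  
      omega
    have goal : (t : ℤ) * t ≤ x := by nlinarith
    exact_mod_cast goal

theorem half_count {ι : Type} [Fintype ι] [DecidableEq ι] (c : ι → Bool) (X : Finset (ι × ι))
    (h : ∀ i k, i ≠ k → c i = c k → (i, k) ∈ X ∨ (k, i) ∈ X) :
    (Fintype.card ι / 2) * ((Fintype.card ι - 1) / 2) ≤ X.card := by
  set P := Finset.univ.filter (fun i => c i = true) with hP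
  set Q := Finset.univ.filter (fun i => c i = false) with hQ
  have hcard : P.card + Q.card = Fintype.card ι := by
    have := Finset.card_filter_add_card_filter_not (s := (Finset.univ : Finset ι)) (fun i => c i = true)
    simp only [Bool.not_eq_true] at this
    simpa [hP, hQ] using this
  have hdisj : Disjoint P.offDiag Q.offDiag := by
    rw [Finset.disjoint_left]
    rintro ⟨i, k⟩ h1 h2
    simp only [hP, hQ, Finset.mem_offDiag, Finset.mem_filter, Finset.mem_univ, true_and] at h1 h2
    rw [h1.1] at h2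
    exact absurd h2.1 (by simp)
  have hsub : P.offDiag ∪ Q.offDiag ⊆ X ∪ X.image Prod.swap := by
    rintro ⟨i, k⟩ hik
    simp only [hP, hQ, Finset.mem_union, Finset.mem_offDiag, Finset.mem_filter, Finset.mem_univ,
      true_and] at hik
    have hne : i ≠ k := by rcases hik with h1 | h1 <;> exact h1.2.2
    have hc : c i = c k := by
      rcases hik with h1 | h1 <;> rw [h1.1, h1.2.1]
    rcases h i k hne hc with h1 | h1
    · exact Finset.mem_union_left _ h1
    · exact Finset.mem_union_right _ (Finset.mem_image.2 ⟨(k, i), h1, rfl⟩)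
  have h1 := Finset.card_le_card hsub
  rw [Finset.card_union_of_disjoint hdisj, Finset.offDiag_card, Finset.offDiag_card] at h1
  have h2 : (X ∪ X.image Prod.swap).card ≤ 2 * X.card := by
    have h3 : (X.image Prod.swap).card ≤ X.card := Finset.card_image_le
    have h4 := Finset.card_union_le X (X.image Prod.swap)
    omega
  rw [← hcard]
  exact arith_half _ _ _ (h1.trans h2)

open Classical in
theorem two_cells {m n : ℕ} (a : Fin m → ℝ × ℝ) (b : Fin n → ℝ × ℝ) (hD : IsDrawing a b)
    (side : Fin n → Bool)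
    (hside : ∀ i k, i ≠ k → ∀ j l, side j = side l →
      0 < orient (a i) (a k) (b j) * orient (a i) (a k) (b l)) :
    ((m / 2 * ((m - 1) / 2) * (n / 2 * ((n - 1) / 2)) : ℕ) : ℕ∞) ≤ (crossings a b).encard := by
  -- crossing pairs of edges
  set CP : Finset ((Fin m × Fin n) × (Fin m × Fin n)) :=
    Finset.univ.filter (fun c => c.1.2 < c.2.2 ∧ (edge a b c.1 ∩ edge a b c.2).Nonempty) with hCP
  -- step 1
  have step1 : (CP.card : ℕ∞) ≤ (crossings a b).encard := by
    set φ : (Fin m × Fin n) × (Fin m × Fin n) → ℝ × ℝ :=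
      fun c => if h : (edge a b c.1 ∩ edge a b c.2).Nonempty then h.some else 0 with hφ
    have hmem : ∀ c ∈ CP, φ c ∈ edge a b c.1 ∩ edge a b c.2 := by
      intro c hc
      have hc' := (Finset.mem_filter.1 hc).2.2
      simp only [hφ, dif_pos hc']
      exact hc'.some_mem
    have hinj : Set.InjOn φ (CP : Set ((Fin m × Fin n) × (Fin m × Fin n))) := by
      intro c hc d hd hcd
      have hc1 := hmem c hc
      have hd1 := hmem d hd
      rw [← hcd] at hd1
      have hclt := (Finset.mem_filter.1 hc).2.1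
      have hdlt := (Finset.mem_filter.1 hd).2.1
      have hcne : c.1 ≠ c.2 := fun h => by rw [h] at hclt; exact lt_irrefl _ hclt
      have hdne : d.1 ≠ d.2 := fun h => by rw [h] at hdlt; exact lt_irrefl _ hdlt
      have m1 : d.1 = c.1 ∨ d.1 = c.2 := by
        by_contra hcon
        push Not at hcon
        exact hD.no_triple _ c.1 c.2 d.1 hcne (Ne.symm hcon.1) (Ne.symm hcon.2) hc1.1 hc1.2 hd1.1
      have m2 : d.2 = c.1 ∨ d.2 = c.2 := by
        by_contra hcon
        push Not at hcon
        exact hD.no_triple _ c.1 c.2 d.2 hcne (Ne.symm hcon.1) (Ne.symm hcon.2) hc1.1 hc1.2 hd1.2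
      rcases m1 with m1 | m1 <;> rcases m2 with m2 | m2
      · exact absurd (m1.trans m2.symm) hdne
      · exact Prod.ext m1.symm m2.symm
      · rw [m1, m2] at hdlt
        exact absurd hdlt (not_lt.mpr hclt.le)
      · exact absurd (m1.trans m2.symm) hdne
    have hsub : φ '' (CP : Set ((Fin m × Fin n) × (Fin m × Fin n))) ⊆ crossings a b := by
      rintro _ ⟨c, hc, rfl⟩
      have hclt := (Finset.mem_filter.1 hc).2.1
      have hcne : c.1 ≠ c.2 := fun h => by rw [h] at hclt; exact lt_irrefl _ hclt
      exact ⟨c.1, c.2, hcne, (hmem c hc).1, (hmem c hc).2⟩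
    calc (CP.card : ℕ∞) = (CP : Set ((Fin m × Fin n) × (Fin m × Fin n))).encard :=
          (Set.encard_coe_eq_coe_finsetCard CP).symm
      _ = (φ '' (CP : Set ((Fin m × Fin n) × (Fin m × Fin n)))).encard := hinj.encard_image.symm
      _ ≤ (crossings a b).encard := Set.encard_le_encard hsub
  -- step 2
  have step2 : m / 2 * ((m - 1) / 2) * (n / 2 * ((n - 1) / 2)) ≤ CP.card := by
    rcases Nat.lt_or_ge m 2 with hm | hm
    · have : m / 2 = 0 := by omega
      rw [this]; simp
    set S : Finset (Fin n × Fin n) :=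
      Finset.univ.filter (fun p => p.1 < p.2 ∧ side p.1 = side p.2) with hS
    have hScard : n / 2 * ((n - 1) / 2) ≤ S.card := by
      have := half_count side S (by
        intro j l hjl hs
        rcases lt_or_gt_of_ne hjl with h | h
        · left; exact Finset.mem_filter.2 ⟨Finset.mem_univ _, h, hs⟩
        · right; exact Finset.mem_filter.2 ⟨Finset.mem_univ _, h, hs.symm⟩)
      simpa using this
    set X : Fin n × Fin n → Finset (Fin m × Fin m) := fun p =>
      Finset.univ.filter (fun q => (edge a b (q.1, p.1) ∩ edge a b (q.2, p.2)).Nonempty) with hX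
    have hXcard : ∀ p ∈ S, m / 2 * ((m - 1) / 2) ≤ (X p).card := by
      rintro ⟨j, l⟩ hp
      have hp' := (Finset.mem_filter.1 hp).2
      have hjl : j ≠ l := ne_of_lt hp'.1
      have hs : side j = side l := hp'.2
      have hne : ∀ i, orient (b j) (b l) (a i) ≠ 0 := by
        intro i
        obtain ⟨k, hk⟩ : ∃ k : Fin m, i ≠ k := by
          by_cases hi : (i : ℕ) = 0
          · exact ⟨⟨1, by omega⟩, fun h => by rw [h] at hi; simp at hi⟩
          · exact ⟨⟨0, by omega⟩, fun h => by rw [h] at hi; simp at hi⟩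
        exact orient_ne_zero (a i) (a k) (b j) (b l) (fun h => hjl (hD.b_inj h)) (hD.a_ne_b i j)
          (hD.a_ne_b i l) (hD.b_notMem l (i, j)) (hD.b_notMem j (i, l)) (hside i k hk j l hs)
      have := half_count (fun i => decide (0 < orient (b j) (b l) (a i))) (X (j, l)) (by
        intro i k hik hc
        have hx : 0 < orient (b j) (b l) (a i) * orient (b j) (b l) (a k) := by
          by_cases h1 : 0 < orient (b j) (b l) (a i)
          · have h2 : 0 < orient (b j) (b l) (a k) := by
              simpa [h1] using hc.symm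
            exact mul_pos h1 h2
          · have h2 : ¬ 0 < orient (b j) (b l) (a k) := by
              simpa [h1] using hc.symm
            exact mul_pos_of_neg_of_neg (lt_of_le_of_ne (not_lt.mp h1) (hne i))
              (lt_of_le_of_ne (not_lt.mp h2) (hne k))
        rcases cross_or_cross (a i) (a k) (b j) (b l) hx (hside i k hik j l hs) with h | h
        · left; exact Finset.mem_filter.2 ⟨Finset.mem_univ _, h⟩
        · right; exact Finset.mem_filter.2 ⟨Finset.mem_univ _, h⟩)
      simpa using this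
    have hinj : (S.sigma X).card ≤ CP.card := by
      apply Finset.card_le_card_of_injOn (fun x => ((x.2.1, x.1.1), (x.2.2, x.1.2)))
      · rintro ⟨⟨j, l⟩, ⟨i, k⟩⟩ hx
        have hx' := Finset.mem_sigma.1 hx
        have h1 := (Finset.mem_filter.1 hx'.1).2
        have h2 := (Finset.mem_filter.1 hx'.2).2
        exact Finset.mem_coe.2 (Finset.mem_filter.2 ⟨Finset.mem_univ _, h1.1, h2⟩)
      · rintro ⟨⟨j, l⟩, ⟨i, k⟩⟩ _ ⟨⟨j', l'⟩, ⟨i', k'⟩⟩ _ h
        simp only [Prod.mk.injEq] at h
        obtain ⟨⟨rfl, rfl⟩, rfl, rfl⟩ := h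
        rfl
    rw [Finset.card_sigma] at hinj
    calc m / 2 * ((m - 1) / 2) * (n / 2 * ((n - 1) / 2))
        ≤ m / 2 * ((m - 1) / 2) * S.card := Nat.mul_le_mul_left _ hScard
      _ = ∑ _p ∈ S, m / 2 * ((m - 1) / 2) := by rw [Finset.sum_const, smul_eq_mul, mul_comm]
      _ ≤ ∑ p ∈ S, (X p).card := Finset.sum_le_sum hXcard
      _ ≤ CP.card := hinj
  calc ((m / 2 * ((m - 1) / 2) * (n / 2 * ((n - 1) / 2)) : ℕ) : ℕ∞) ≤ (CP.card : ℕ∞) := by
        exact_mod_cast step2
    _ ≤ _ := step1

theorem collinear_class {m n : ℕ} (a : Fin m → ℝ × ℝ) (b : Fin n → ℝ × ℝ) (hD : IsDrawing a b)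
    (u v w : ℝ) (hA : ∀ i, u * (a i).1 + v * (a i).2 = w)
    (hB : ∀ j, u * (b j).1 + v * (b j).2 ≠ w) :
    ((m / 2 * ((m - 1) / 2) * (n / 2 * ((n - 1) / 2)) : ℕ) : ℕ∞) ≤ (crossings a b).encard := by
  apply two_cells a b hD (fun j => decide (w < u * (b j).1 + v * (b j).2))
  intro i k hik j l hs
  have huv : 0 < u ^ 2 + v ^ 2 := by
    by_contra hc
    have h3 : u ^ 2 + v ^ 2 = 0 := le_antisymm (not_lt.mp hc) (by positivity)
    have h4 : u = 0 := by nlinarith [sq_nonneg u, sq_nonneg v]
    have h5 : v = 0 := by nlinarith [sq_nonneg u, sq_nonneg v]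
    have h6 := hA i
    have h7 := hB j
    rw [h4, h5] at h6 h7
    exact h7 (by linarith)
  have hd : 0 < ((a k).1 - (a i).1) ^ 2 + ((a k).2 - (a i).2) ^ 2 := by
    by_contra hc
    have h3 : ((a k).1 - (a i).1) ^ 2 + ((a k).2 - (a i).2) ^ 2 = 0 :=
      le_antisymm (not_lt.mp hc) (by positivity)
    have h4 : (a k).1 - (a i).1 = 0 := by
      nlinarith [sq_nonneg ((a k).1 - (a i).1), sq_nonneg ((a k).2 - (a i).2)]
    have h5 : (a k).2 - (a i).2 = 0 := by
      nlinarith [sq_nonneg ((a k).1 - (a i).1), sq_nonneg ((a k).2 - (a i).2)]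
    exact hik (hD.a_inj (Prod.ext (by linarith) (by linarith)))
  have hl : 0 < (u * (b j).1 + v * (b j).2 - w) * (u * (b l).1 + v * (b l).2 - w) := by
    by_cases h1 : w < u * (b j).1 + v * (b j).2
    · have h2 : w < u * (b l).1 + v * (b l).2 := by simpa [h1] using hs.symm
      exact mul_pos (by linarith) (by linarith)
    · have h2 : ¬ w < u * (b l).1 + v * (b l).2 := by simpa [h1] using hs.symm
      have h1' : u * (b j).1 + v * (b j).2 < w := lt_of_le_of_ne (not_lt.mp h1) (hB j)
      have h2' : u * (b l).1 + v * (b l).2 < w := lt_of_le_of_ne (not_lt.mp h2) (hB l)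
      exact mul_pos_of_neg_of_neg (by linarith) (by linarith)
  have hi := hA i
  have hk := hA k
  have key : orient (a i) (a k) (b j) * orient (a i) (a k) (b l) * (u ^ 2 + v ^ 2)
      = (u * (b j).1 + v * (b j).2 - w) * (u * (b l).1 + v * (b l).2 - w)
        * (((a k).1 - (a i).1) ^ 2 + ((a k).2 - (a i).2) ^ 2) := by
    have hdd : u * ((a k).1 - (a i).1) + v * ((a k).2 - (a i).2) = 0 := by linarith
    have o1 : ∀ z : ℝ × ℝ, orient (a i) (a k) z * u
        = -((a k).2 - (a i).2) * (u * z.1 + v * z.2 - w) := by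
      intro z
      unfold orient
      linear_combination (z.2 - (a i).2) * hdd + ((a k).2 - (a i).2) * hi
    have o2 : ∀ z : ℝ × ℝ, orient (a i) (a k) z * v
        = ((a k).1 - (a i).1) * (u * z.1 + v * z.2 - w) := by
      intro z
      unfold orient
      linear_combination (-(z.1 - (a i).1)) * hdd - ((a k).1 - (a i).1) * hi
    calc orient (a i) (a k) (b j) * orient (a i) (a k) (b l) * (u ^ 2 + v ^ 2)
        = (orient (a i) (a k) (b j) * u) * (orient (a i) (a k) (b l) * u)
          + (orient (a i) (a k) (b j) * v) * (orient (a i) (a k) (b l) * v) := by ring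
      _ = _ := by rw [o1, o1, o2, o2]; ring
  have hpos : 0 < orient (a i) (a k) (b j) * orient (a i) (a k) (b l) * (u ^ 2 + v ^ 2) := by
    rw [key]; exact mul_pos hl hd
  exact (mul_pos_iff_of_pos_right huv).1 hpos

/-- Zarankiewicz's bound for two classes of straight-line drawings of `K_{m,n}`:
(1) the vertices `b j` carry two labels such that no line through two vertices `a i`, `a k`
meets or separates two equally labelled vertices; (2) all `a i` on a line, no `b j` on it. -/
theorem result :
    (∀ (m n : ℕ) (a : Fin m → ℝ × ℝ) (b : Fin n → ℝ × ℝ), IsDrawing a b →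
      ∀ side : Fin n → Bool,
      (∀ i k, i ≠ k → ∀ j l, side j = side l →
        0 < orient (a i) (a k) (b j) * orient (a i) (a k) (b l)) →
      ((m / 2 * ((m - 1) / 2) * (n / 2 * ((n - 1) / 2)) : ℕ) : ℕ∞) ≤ (crossings a b).encard) ∧
    (∀ (m n : ℕ) (a : Fin m → ℝ × ℝ) (b : Fin n → ℝ × ℝ), IsDrawing a b →
      ∀ u v w : ℝ, (∀ i, u * (a i).1 + v * (a i).2 = w) → (∀ j, u * (b j).1 + v * (b j).2 ≠ w) →
      ((m / 2 * ((m - 1) / 2) * (n / 2 * ((n - 1) / 2)) : ℕ) : ℕ∞) ≤ (crossings a b).encard) :=
  ⟨fun _ _ a b hD side hside => two_cells a b hD side hside,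
   fun _ _ a b hD u v w hA hB => collinear_class a b hD u v w hA hB⟩

end Vale.Agent.Results.P040.TwoCells
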